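import Vale.Agent.P241.BD2.EtaExt
import Vale.Agent.P241.R.TSide

/-!
# P241, block BD2: the statement `VtStmt` of `R/TSide.lean`

* `KAStmt S p X` : every Morava `K`-theory of height `n ≥ 1` is an associative Morava `K`-theory
  under `MU` (`H795/KA.lean`);
* `isIso_rlin_of_isVT` : the multiplication by `m v_n^N` is an isomorphism on `K(n) ⊗ MU`;
* `rlin_vel_eq_zero` : the multiplication by `v_t` is zero on `K(n) ⊗ MU`, `t < n`;
* `vtStmt_of`.
-/

open CategoryTheory MonoidalCategory Limits Pretriangulated MonObj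

set_option linter.unusedSectionVars false

noncomputable section

namespace Vale.Agent.P241.BD2

open Vale.Agent.P251 Vale.Agent.P251.St Vale.Agent.P251.St.SHCat
open Vale.Agent.P251.T Vale.Agent.P251.M Vale.Agent.P251.F Vale.Agent.P251.I
open Vale.Agent.P241.St Vale.Agent.P241.Final Vale.Agent.P241.BD Vale.Agent.P241.H795
open Vale.Agent.P251.S hiding Acyclic

variable {T : SHCat} (S : Susp T) (p : ℕ)

/-- Every Morava `K`-theory of height `n ≥ 1` is an associative Morava `K`-theory under `MU`. -/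
def KAStmt (X : Ctx S) : Prop :=
  ∀ (n : ℕ), n ≠ 0 → ∀ K : RingA T, IsMoravaK S p n K → Nonempty (KA X.D p n K.obj)

variable {S} {p}

theorem exists_div {K : RingA T} (h : IsRationalA K) (c : ℤ) (hc : c ≠ 0) :
    ∃ w : 𝟙_ T.C ⟶ K.obj, c • w = η[K.obj] := (h.div c hc).2 K.unit

theorem isRationalA_of {K : RingA T} (h : IsMoravaK S p 0 K) : IsRationalA K := by
  unfold IsMoravaK at h
  rwa [if_pos rfl] at h

theorem isVP_of_isVT {X : Ctx S} {t : ℕ} {k : ℤ} {x : (stdEven T.C).S k ⟶ X.D.R}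
    (hx : R.IsVT X.D p t k x) {A P : T.C} (e : A ≅ (stdEven T.C).S k ⊗ P) :
    ∃ N, IsVP X.D p t N (e.hom ≫ x ▷ P) := by
  obtain ⟨m, N, hm, hx⟩ := hx
  refine ⟨N, k, e, x, m, ?_, ?_, rfl⟩
  · rwa [Int.natCast_dvd_natCast]
  · rw [hx, natCast_zsmul, nsmul_eq_mul]

theorem isVP_vel [Fact p.Prime] (X : Ctx S) (t : ℕ) {A P : T.C}
    (e : A ≅ (stdEven T.C).S ((p ^ t : ℤ) - 1) ⊗ P) :
    IsVP X.D p t 1 (e.hom ≫ X.D.vel p t ▷ P) := by
  refine ⟨_, e, X.D.vel p t, 1, ?_, ?_, rfl⟩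
  · intro h
    have h1 := Int.natCast_dvd_natCast.1 (by exact_mod_cast h : (p : ℤ) ∣ ((1 : ℕ) : ℤ))
    exact (Fact.out : p.Prime).one_lt.ne' (Nat.dvd_one.1 h1)
  · rw [← X.D.vel_spec p t, pow_one, one_smul]

/-- **The multiplication by `m v_n^N` is an isomorphism on `K(n) ⊗ MU`.** -/
theorem isIso_rlin_of_isVT [Fact p.Prime] {X : Ctx S} (hKA : KAStmt S p X) {n : ℕ} {K : RingA T}
    (hK : IsMoravaK S p n K) {k : ℤ} {x : (stdEven T.C).S k ⟶ X.D.R} (hx : R.IsVT X.D p n k x)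
    {A P : T.C} (e : A ≅ (stdEven T.C).S k ⊗ P) :
    IsIso (K.obj ◁ rlin X.D.R (e.hom ≫ x ▷ P)) := by
  obtain ⟨N, h⟩ := isVP_of_isVT hx e
  rcases Nat.eq_zero_or_pos n with rfl | hn
  · exact h.isIso_rlin_rat (exists_div (isRationalA_of hK))
  · obtain ⟨h1⟩ := hKA n hn.ne' K hK
    exact KA.isIso_rlin h1 hn.ne' h

/-- **The multiplication by `v_t`, `t < n`, is zero on `K(n) ⊗ MU`.** -/
theorem rlin_vel_eq_zero [Fact p.Prime] {X : Ctx S} (hKA : KAStmt S p X) {n : ℕ} {K : RingA T}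
    (hK : IsMoravaK S p n K) {t : ℕ} (ht : t < n)
    {A P : T.C} (e : A ≅ (stdEven T.C).S ((p ^ t : ℤ) - 1) ⊗ P) :
    K.obj ◁ rlin X.D.R (e.hom ≫ X.D.vel p t ▷ P) = 0 := by
  obtain ⟨h1⟩ := hKA n (Nat.pos_of_ne_zero (by omega)).ne' K hK
  exact KA.rlin_eq_zero h1 ht one_ne_zero (isVP_vel X t e)

theorem whiskerRight_mul_eq {C : Type*} [Category C] [MonoidalCategory C] [SymmetricCategory C]
    {A R : C} [MonObj R] [IsCommMonObj R] (x : A ⟶ R) :
    x ▷ R ≫ μ[R] = (β_ A R).hom ≫ (R ◁ x ≫ μ[R]) := by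
  rw [← BraidedCategory.braiding_naturality_left_assoc, IsCommMonObj.mul_comm]

/-- **Block BD2 (c), (d).** -/
theorem vtStmt_of [Fact p.Prime] {X : Ctx S} (hKA : KAStmt S p X) : R.VtStmt S p X := by
  intro n K hK
  have key : ∀ {k : ℤ} (x : (stdEven T.C).S k ⟶ X.D.R),
      K.obj ◁ (x ▷ X.D.R ≫ μ[X.D.R]) = K.obj ◁ (β_ _ _).hom ≫
        K.obj ◁ (X.D.R ◁ x ≫ μ[X.D.R]) := by
    intro k x
    rw [whiskerRight_mul_eq, MonoidalCategory.whiskerLeft_comp]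
  constructor
  · intro k x hx j y hy
    obtain ⟨m, N, hm, hx⟩ := hx
    have hx' : HRing.of (stdEven T.C) X.D.R k x = (m : ℤ) • (vv p n X.D.law) ^ N := by
      rw [hx, natCast_zsmul, nsmul_eq_mul]
    have hm' : ¬ (p : ℤ) ∣ (m : ℤ) := by rwa [Int.natCast_dvd_natCast]
    have h1 : IsIso (K.obj ◁ (X.D.R ◁ x ≫ μ[X.D.R])) := by
      rcases Nat.eq_zero_or_pos n with rfl | hn
      · exact eta_iso_rat (exists_div (isRationalA_of hK)) x hm' hx'
      · obtain ⟨h1⟩ := hKA n hn.ne' K hK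
        exact eta_iso X.D h1.u hn.ne' h1.vv_lt h1.vv_unit x hm' hx'
    have h2 : IsIso (K.obj ◁ (x ▷ X.D.R ≫ μ[X.D.R])) := by
      rw [key]
      infer_instance
    rw [← cancel_mono (K.obj ◁ (x ▷ X.D.R ≫ μ[X.D.R])), zero_comp]
    exact hy
  · intro t ht j y
    obtain ⟨h1⟩ := hKA n (Nat.pos_of_ne_zero (by omega)).ne' K hK
    have h2 := eta_zero X.D h1.u h1.vv_lt ht (X.D.vel p t) (m := 1) one_ne_zero
      (by rw [← X.D.vel_spec p t, pow_one, one_smul])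
    have h3 : K.obj ◁ (X.D.vel p t ▷ X.D.R ≫ μ[X.D.R]) = 0 := by
      rw [key, h2, comp_zero]
    exact (congrArg (fun f => y ≫ f) h3).trans comp_zero

end Vale.Agent.P241.BD2
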