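import Vale.Agent.P251.M.KBasisMU
import Vale.Agent.P251.M.MUInv
import Vale.Agent.P251.Z.PFree
import Vale.Agent.P251.Z.MoravaP

/-!
# P241, block BD2: the right unit on `K ⊗ MU`, `K` an associative Morava `K`-theory

`K` a monoid (not necessarily commutative) with a map of monoids `k : MU ⟶ K` such that
`k (v_i) = 0` for `i < n` and `k (v_n)` is a unit. Then the right multiplication of
`K ⊗ MU` by a class `m v_n^N` (`m` prime to `p`) is an isomorphism, by a class
`m v_t^N` (`t < n`, `N ≠ 0`) it is zero.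
-/

open CategoryTheory MonoidalCategory Limits Pretriangulated MonObj

set_option linter.unusedSectionVars false

universe v u

namespace Vale.Agent.P241.BD2

open Vale.Agent.P251.T Vale.Agent.P251.M Vale.Agent.P251.S Vale.Agent.P251.F Vale.Agent.P251.I
  EvenSpheres

section rm

variable {T : Type u} [Category.{v} T] [MonoidalCategory T] [SymmetricCategory T]
  {E : EvenSpheres T}

/-- Right multiplication by `a`. -/
def rm {M : T} [MonObj M] {A : T} (a : A ⟶ M) : M ⊗ A ⟶ M := M ◁ a ≫ μ[M]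

theorem rm_comp {M : T} [MonObj M] {A B : T} (a : A ⟶ M) (b : B ⟶ M) :
    rm a ▷ B ≫ rm b = (α_ M A B).hom ≫ rm ((a ⊗ₘ b) ≫ μ[M]) := by
  unfold rm
  rw [comp_whiskerRight, Category.assoc, ← whisker_exchange_assoc, MonObj.mul_assoc,
    tensorHom_def, Category.assoc, MonoidalCategory.whiskerLeft_comp,
    MonoidalCategory.whiskerLeft_comp, Category.assoc, Category.assoc,
    associator_naturality_right_assoc, associator_naturality_middle_assoc]

theorem rm_precomp {M : T} [MonObj M] {A B : T} (f : B ⟶ A) (a : A ⟶ M) :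
    rm (f ≫ a) = M ◁ f ≫ rm a := by
  unfold rm
  rw [MonoidalCategory.whiskerLeft_comp, Category.assoc]

theorem rm_one {M : T} [MonObj M] : rm (η[M]) = (ρ_ M).hom := MonObj.mul_one M

theorem rm_gmul {M : T} [MonObj M] {m n q : ℤ} (h : m + n = q) (a : E.S m ⟶ M)
    (b : E.S n ⟶ M) :
    rm a ▷ E.S n ≫ rm b = (α_ M _ _).hom ≫ M ◁ (E.mu m n q h).hom ≫ rm (gmul h a b) := by
  rw [rm_comp, ← rm_precomp]
  congr 2
  unfold gmul EvenSpheres.ext
  rw [Category.assoc, Iso.hom_inv_id_assoc]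

theorem isIso_rm_gmul {M : T} [MonObj M] {m n : ℤ} (h : m + n = 0) (a : E.S m ⟶ M)
    (b : E.S n ⟶ M) (hab : gmul h a b = E.zero.inv ≫ η[M]) : IsIso (rm a ▷ E.S n ≫ rm b) := by
  rw [rm_gmul h, hab, rm_precomp, rm_one]
  infer_instance

theorem isIso_of_whiskerRight_S {X Y : T} (f : X ⟶ Y) (m : ℤ) (h : IsIso (f ▷ E.S m)) :
    IsIso f := by
  have h1 : IsIso (f ▷ E.S m ▷ E.S (-m)) := inferInstance
  have e : E.S m ⊗ E.S (-m) ≅ 𝟙_ T := E.mu m (-m) 0 (add_neg_cancel m) ≪≫ E.zero
  have h2 : IsIso (f ▷ (E.S m ⊗ E.S (-m))) := by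
    rw [whiskerRight_tensor]
    infer_instance
  have h3 : f ▷ 𝟙_ T = (X ◁ e.inv) ≫ f ▷ (E.S m ⊗ E.S (-m)) ≫ (Y ◁ e.hom) := by
    rw [whisker_exchange_assoc, ← MonoidalCategory.whiskerLeft_comp, Iso.inv_hom_id,
      MonoidalCategory.whiskerLeft_id, Category.comp_id]
  have h4 : IsIso (f ▷ 𝟙_ T) := by
    rw [h3]
    infer_instance
  have h5 : f = (ρ_ X).inv ≫ f ▷ 𝟙_ T ≫ (ρ_ Y).hom := by simp
  rw [h5]
  infer_instance

/-- Right multiplication by an invertible homogeneous element is an isomorphism. -/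
theorem isIso_rm {M : T} [MonObj M] {m n : ℤ} (h : m + n = 0) (h' : n + m = 0) (a : E.S m ⟶ M)
    (b : E.S n ⟶ M) (hab : gmul h a b = E.zero.inv ≫ η[M])
    (hba : gmul h' b a = E.zero.inv ≫ η[M]) : IsIso (rm a) := by
  have h1 := isIso_rm_gmul h a b hab
  have h2 := isIso_rm_gmul h' b a hba
  have h3 : IsSplitEpi (rm a) := by
    refine ⟨⟨inv (rm b ▷ E.S m ≫ rm a) ≫ rm b ▷ E.S m, ?_⟩⟩
    rw [Category.assoc, IsIso.inv_hom_id]
  have h4 : IsSplitMono (rm a ▷ E.S n) := by
    refine ⟨⟨rm b ≫ inv (rm a ▷ E.S n ≫ rm b), ?_⟩⟩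
    rw [← Category.assoc, IsIso.hom_inv_id]
  have h5 : IsIso (rm a ▷ E.S n) := by
    have : IsSplitEpi (rm a ▷ E.S n) :=
      inferInstanceAs (IsSplitEpi ((tensorRight (E.S n)).map (rm a)))
    exact isIso_of_mono_of_isSplitEpi _
  exact isIso_of_whiskerRight_S _ n h5

variable [Preadditive T] [MonoidalPreadditive T]

/-- components of a product with a homogeneous element -/
theorem of_mul_apply {M : T} [MonObj M] {m n q : ℤ} (h : m + n = q) (a : E.S m ⟶ M)
    (z : HRing E M) : (HRing.of E M m a * z) q = gmul h a (z n) := by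
  classical
  induction z using DirectSum.induction_on with
  | zero =>
    rw [MulZeroClass.mul_zero]
    exact (gmul_zero_right h a).symm
  | of i w =>
    have h1 : HRing.of E M m a * DirectSum.of (E.Gr M) i w =
        HRing.of E M (m + i) (gmul rfl a w) := of_mul_of rfl a w
    rw [h1]
    by_cases hi : i = n
    · subst hi
      subst h
      rw [DirectSum.of_eq_same, DirectSum.of_eq_same]
    · rw [DirectSum.of_eq_of_ne _ _ _ (by omega), DirectSum.of_eq_of_ne _ _ _ (Ne.symm hi)]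
      exact (gmul_zero_right h a).symm
  | add x y hx hy =>
    rw [mul_add, DirectSum.add_apply, hx, hy, DirectSum.add_apply]
    exact (gmul_add_right h a _ _).symm

theorem mul_of_apply {M : T} [MonObj M] {m n q : ℤ} (h : n + m = q) (a : E.S m ⟶ M)
    (z : HRing E M) : (z * HRing.of E M m a) q = gmul h (z n) a := by
  classical
  induction z using DirectSum.induction_on with
  | zero =>
    rw [MulZeroClass.zero_mul]
    exact (gmul_zero_left h a).symm
  | of i w =>
    have h1 : DirectSum.of (E.Gr M) i w * HRing.of E M m a =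
        HRing.of E M (i + m) (gmul rfl w a) := of_mul_of rfl w a
    rw [h1]
    by_cases hi : i = n
    · subst hi
      subst h
      rw [DirectSum.of_eq_same, DirectSum.of_eq_same]
    · rw [DirectSum.of_eq_of_ne _ _ _ (by omega), DirectSum.of_eq_of_ne _ _ _ (Ne.symm hi)]
      exact (gmul_zero_left h a).symm
  | add x y hx hy =>
    rw [add_mul, DirectSum.add_apply, hx, hy, DirectSum.add_apply]
    exact (gmul_add_left h _ _ a).symm

/-- Right multiplication by a homogeneous unit is an isomorphism. -/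
theorem isIso_rm_of_isUnit {M : T} [MonObj M] {m : ℤ} (a : E.S m ⟶ M)
    (ha : IsUnit (HRing.of E M m a)) : IsIso (rm a) := by
  obtain ⟨z, h1, h2⟩ := isUnit_iff_exists.1 ha
  have h3 : (1 : HRing E M) 0 = E.zero.inv ≫ η[M] := by
    rw [← of_one, DirectSum.of_eq_same]
  refine isIso_rm (E := E) (n := -m) (add_neg_cancel m) (neg_add_cancel m) a (z (-m)) ?_ ?_
  · rw [← of_mul_apply, h1, h3]
  · rw [← mul_of_apply, h2, h3]

end rm

section eta

variable {T : Type u} [Category.{v} T] [Preadditive T] [HasZeroObject T]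
    [HasShift T ℤ] [∀ n : ℤ, (shiftFunctor T n).Additive] [Pretriangulated T] [IsTriangulated T]
    [MonoidalCategory T] [SymmetricCategory T] [TensorTriangulated T] [MonoidalClosed T]
    [HasCoproducts.{0} T] [HasProducts.{0} T] [StableCat T]
    (D : MUData T) {K : T} [MonObj K] (k : D.R ⟶ K) [IsMonHom k]

/-- The right unit in `K ⊗ MU` is the left unit, modulo lower `v_i`. -/
theorem map_inr_vv {p n : ℕ} [Fact p.Prime]
    (h0 : ∀ i < n, HRing.map (E := stdEven T) k (vv p i D.law) = 0) {t : ℕ} (ht : t ≤ n) :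
    HRing.map (E := stdEven T) (inrM K D.R) (vv p t D.law) =
      HRing.map (E := stdEven T) (inlM K D.R) (HRing.map k (vv p t D.law)) := by
  have hv0 : ∀ x, HRing.map (E := stdEven T) (D.toKR k)
      (HRing.map (E := stdEven T) (Am.v D.R (0 : Fin 2)) x) =
        HRing.map (E := stdEven T) (inlM K D.R) (HRing.map k x) := by
    intro x
    rw [← RingHom.comp_apply, ← RingHom.comp_apply, ← HRing.map_comp, ← HRing.map_comp,
      HRing_map_congr (D.v_zero_toKR k)]
  have hv1 : ∀ x, HRing.map (E := stdEven T) (D.toKR k)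
      (HRing.map (E := stdEven T) (Am.v D.R (1 : Fin 2)) x) =
        HRing.map (E := stdEven T) (inrM K D.R) x := by
    intro x
    rw [← RingHom.comp_apply, ← HRing.map_comp, HRing_map_congr (D.v_one_toKR k)]
  have h1 := vv_smul_sub_mem p t (D.law.map (HRing.map (E := stdEven T) (Am.v D.R (0 : Fin 2))))
    D.strictIso
  rw [D.strictIso_c, one_pow, _root_.mul_one, _root_.one_mul, D.strictIso_smul, vv_map,
    vv_map] at h1
  have h2 : Ih p t (D.law.map (HRing.map (E := stdEven T) (Am.v D.R (0 : Fin 2)))) ≤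
      RingHom.ker (HRing.map (E := stdEven T) (D.toKR k)) := by
    refine Ideal.span_le.2 ?_
    rintro _ ⟨i, hi, rfl⟩
    change HRing.map (E := stdEven T) (D.toKR k) _ = 0
    rw [vv_map, hv0, h0 i (by omega), map_zero]
  have h3 := h2 h1
  rw [RingHom.mem_ker, map_sub, hv0, hv1] at h3
  exact sub_eq_zero.1 h3

/-- `p = 0` in `π_* K` -/
theorem map_natCast_eq_zero {p n : ℕ} [Fact p.Prime] (hn : n ≠ 0)
    (h0 : ∀ i < n, HRing.map (E := stdEven T) k (vv p i D.law) = 0) :
    (p : HRing (stdEven T) K) = 0 := by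
  have h := h0 0 (Nat.pos_of_ne_zero hn)
  rwa [vv_zero, map_natCast] at h

theorem isUnit_intCast {A : Type*} [Ring A] {p : ℕ} (hp : p.Prime) (h : (p : A) = 0) {m : ℤ}
    (hm : ¬ (p : ℤ) ∣ m) : IsUnit (m : A) := by
  have h1 : IsCoprime (p : ℤ) m :=
    (Prime.coprime_iff_not_dvd (Nat.prime_iff_prime_int.1 hp)).2 hm
  obtain ⟨a, b, hab⟩ := h1
  have h2 : (b : A) * (m : A) = 1 := by
    have h3 := congrArg (Int.cast : ℤ → A) hab
    push_cast at h3
    rwa [h, mul_zero, zero_add] at h3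
  have h4 : (m : A) * (b : A) = 1 := by
    rw [← (Int.cast_commute b (m : A)).eq]
    exact h2
  exact isUnit_iff_exists.2 ⟨b, h4, h2⟩

/-- Right multiplication on `K ⊗ R` by `x : A ⟶ R`. -/
theorem rm_inrM {R A : T} [MonObj R] (x : A ⟶ R) :
    rm (x ≫ inrM K R) = (α_ K R A).hom ≫ K ◁ (R ◁ x ≫ μ[R]) := by
  unfold rm
  rw [MonoidalCategory.whiskerLeft_comp, Category.assoc, Vale.Agent.P251.Z.mul_inrM,
    MonoidalCategory.whiskerLeft_comp, associator_naturality_right_assoc]

/-- The class of the right unit of `x = m v_t^N` in `K ⊗ MU`. -/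
theorem of_inrM {p n : ℕ} [Fact p.Prime]
    (h0 : ∀ i < n, HRing.map (E := stdEven T) k (vv p i D.law) = 0) {t : ℕ} (ht : t ≤ n)
    {j : ℤ} (x : (stdEven T).S j ⟶ D.R) {m : ℤ} {N : ℕ}
    (hx : HRing.of (stdEven T) D.R j x = m • (vv p t D.law) ^ N) :
    HRing.of (stdEven T) (K ⊗ D.R) j (x ≫ inrM K D.R) =
      m • (HRing.map (E := stdEven T) (inlM K D.R)
        (HRing.map (E := stdEven T) k (vv p t D.law))) ^ N := by
  rw [← HRing.map_of, hx, map_zsmul, map_pow, map_inr_vv D k h0 ht]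

/-- **ETA, isomorphism.** The multiplication by `m v_n^N`, `m` prime to `p`, is an isomorphism
on `K ⊗ MU`. -/
theorem eta_iso {p n : ℕ} [Fact p.Prime] (hn : n ≠ 0)
    (h0 : ∀ i < n, HRing.map (E := stdEven T) k (vv p i D.law) = 0)
    (h1 : IsUnit (HRing.map (E := stdEven T) k (vv p n D.law)))
    {j : ℤ} (x : (stdEven T).S j ⟶ D.R) {m : ℤ} {N : ℕ} (hm : ¬ (p : ℤ) ∣ m)
    (hx : HRing.of (stdEven T) D.R j x = m • (vv p n D.law) ^ N) :
    IsIso (K ◁ (D.R ◁ x ≫ μ[D.R])) := by
  have h2 := of_inrM D k h0 le_rfl x hx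
  have h3 : (p : HRing (stdEven T) (K ⊗ D.R)) = 0 := by
    have h := congrArg (HRing.map (E := stdEven T) (inlM K D.R)) (map_natCast_eq_zero D k hn h0)
    rwa [map_natCast, map_zero] at h
  have h4 : IsUnit (HRing.of (stdEven T) (K ⊗ D.R) j (x ≫ inrM K D.R)) := by
    rw [h2, zsmul_eq_mul]
    exact (isUnit_intCast Fact.out h3 hm).mul ((h1.map _).pow N)
  have h5 := isIso_rm_of_isUnit _ h4
  rw [rm_inrM] at h5
  exact IsIso.of_isIso_comp_left (α_ K D.R _).hom _

/-- **ETA, zero.** The multiplication by `m v_t^N`, `t < n`, `N ≠ 0`, is zero on `K ⊗ MU`. -/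
theorem eta_zero {p n : ℕ} [Fact p.Prime]
    (h0 : ∀ i < n, HRing.map (E := stdEven T) k (vv p i D.law) = 0) {t : ℕ} (ht : t < n)
    {j : ℤ} (x : (stdEven T).S j ⟶ D.R) {m : ℤ} {N : ℕ} (hN : N ≠ 0)
    (hx : HRing.of (stdEven T) D.R j x = m • (vv p t D.law) ^ N) :
    K ◁ (D.R ◁ x ≫ μ[D.R]) = 0 := by
  have h2 := of_inrM D k h0 ht.le x hx
  rw [h0 t ht, map_zero, zero_pow hN, smul_zero] at h2
  have h3 : x ≫ inrM K D.R = 0 := by
    have h4 : HRing.of (stdEven T) (K ⊗ D.R) j (x ≫ inrM K D.R) =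
        HRing.of (stdEven T) (K ⊗ D.R) j 0 := by
      rw [h2]
      exact (map_zero _).symm
    exact Vale.Agent.P251.Z.hring_of_injective _ _ _ h4
  have h5 : rm (x ≫ inrM K D.R) = 0 := by
    rw [h3]
    unfold rm
    rw [MonoidalPreadditive.whiskerLeft_zero, zero_comp]
  rw [← cancel_epi (α_ K D.R _).hom, ← rm_inrM, h5, comp_zero]

end eta

end Vale.Agent.P241.BD2
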