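import Vale.Agent.P241.BD2.Eta
import Vale.Agent.P241.BD.Mult
import Vale.Agent.P241.H795.KA

/-!
# P241, block BD2: multiplication by `m v_t^N` on `K ⊗ MU`, for arbitrary models of the spheres

* `IsVP D p t N x` : `x : A ⟶ MU ⊗ P` is `m v_t^N` (`p ∤ m`) after an identification
  `A ≅ S^j ⊗ P`;
* `KA.isIso_rlin`, `KA.rlin_eq_zero` : for `K` of height `n`, the `MU`-linear extension of `x` is
  an isomorphism on `K ⊗ MU` if `t = n`, and zero if `t < n`, `N ≠ 0`;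
* `IsVP.isIso_rlin_rat` : the case of a rational `K` and `t = 0`.
-/

open CategoryTheory MonoidalCategory Limits Pretriangulated MonObj

set_option linter.unusedSectionVars false

universe v u

namespace Vale.Agent.P241.BD2

open Vale.Agent.P251.T Vale.Agent.P251.M Vale.Agent.P251.S Vale.Agent.P251.F Vale.Agent.P251.I
  EvenSpheres Vale.Agent.P241.BD Vale.Agent.P241.H795

section rlin

variable {T : Type u} [Category.{v} T] [MonoidalCategory T] [SymmetricCategory T]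

theorem rlin_eq {R A A' P : T} [MonObj R] (a : A ⟶ A' ⊗ P) (x : A' ⟶ R) :
    rlin R (a ≫ x ▷ P) = R ◁ a ≫ (α_ R A' P).inv ≫ (R ◁ x ≫ μ[R]) ▷ P := by
  unfold rlin
  rw [MonoidalCategory.whiskerLeft_comp, Category.assoc, associator_inv_naturality_middle_assoc,
    comp_whiskerRight]

theorem isIso_whiskerLeft_rlin {K R A A' P : T} [MonObj R] (a : A ≅ A' ⊗ P) (x : A' ⟶ R)
    [IsIso (K ◁ (R ◁ x ≫ μ[R]))] : IsIso (K ◁ rlin R (a.hom ≫ x ▷ P)) := by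
  rw [rlin_eq, MonoidalCategory.whiskerLeft_comp, MonoidalCategory.whiskerLeft_comp]
  have h1 : K ◁ ((R ◁ x ≫ μ[R]) ▷ P) = (α_ K _ P).inv ≫ (K ◁ (R ◁ x ≫ μ[R])) ▷ P ≫
      (α_ K R P).hom := by
    rw [associator_naturality_middle, Iso.inv_hom_id_assoc]
  rw [h1]
  infer_instance

end rlin

section unit

variable {T : Type u} [Category.{v} T] [Preadditive T] [MonoidalCategory T] [SymmetricCategory T]
  [MonoidalPreadditive T] {E : EvenSpheres T}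

theorem whiskerLeft_rlin_eq_zero {K R A A' P : T} [MonObj R] (a : A ⟶ A' ⊗ P) (x : A' ⟶ R)
    (h : K ◁ (R ◁ x ≫ μ[R]) = 0) : K ◁ rlin R (a ≫ x ▷ P) = 0 := by
  rw [rlin_eq, MonoidalCategory.whiskerLeft_comp, MonoidalCategory.whiskerLeft_comp]
  have h1 : K ◁ ((R ◁ x ≫ μ[R]) ▷ P) = (α_ K _ P).inv ≫ (K ◁ (R ◁ x ≫ μ[R])) ▷ P ≫
      (α_ K R P).hom := by
    rw [associator_naturality_middle, Iso.inv_hom_id_assoc]
  rw [h1, h, MonoidalPreadditive.zero_whiskerRight, zero_comp, comp_zero, comp_zero, comp_zero]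

theorem of_comp_one {M : T} [MonObj M] (f g : 𝟙_ T ⟶ M) :
    HRing.of E M 0 (E.zero.inv ≫ f) * HRing.of E M 0 (E.zero.inv ≫ g) =
      HRing.of E M 0 (E.zero.inv ≫ (λ_ (𝟙_ T)).inv ≫ (f ⊗ₘ g) ≫ μ[M]) := by
  rw [of_mul_of (add_zero 0)]
  congr 1
  unfold gmul
  rw [one_ext, tensorHom_def']
  simp only [Category.assoc]
  rw [leftUnitor_inv_naturality_assoc]

/-- An integer `c` with `c w = 1` for some `w ∈ π_0 M` is a unit of `π_* M`. -/
theorem isUnit_of_div {M : T} [MonObj M] {c : ℤ} (w : 𝟙_ T ⟶ M) (hw : c • w = η[M]) :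
    IsUnit (c : HRing E M) := by
  have h1 : c • HRing.of E M 0 (E.zero.inv ≫ w) = 1 := by
    rw [← of_one, ← hw, ← map_zsmul, Preadditive.comp_zsmul]
  refine isUnit_iff_exists.2 ⟨HRing.of E M 0 (E.zero.inv ≫ w), ?_, ?_⟩
  · rw [← zsmul_eq_mul, h1]
  · rw [← (Int.cast_commute c _).eq, ← zsmul_eq_mul, h1]

end unit

variable {T : Type u} [Category.{v} T] [Preadditive T] [HasZeroObject T]
    [HasShift T ℤ] [∀ n : ℤ, (shiftFunctor T n).Additive] [Pretriangulated T] [IsTriangulated T]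
    [MonoidalCategory T] [SymmetricCategory T] [TensorTriangulated T] [MonoidalClosed T]
    [HasCoproducts.{0} T] [HasProducts.{0} T] [StableCat T]
    (D : MUData T) {K : T} [MonObj K]

/-- `x : A ⟶ MU ⊗ P` is `m v_t^N`, `p ∤ m`, after an identification `A ≅ S^j ⊗ P`. -/
def IsVP (p t N : ℕ) {A P : T} (x : A ⟶ D.R ⊗ P) : Prop :=
  ∃ (j : ℤ) (a : A ≅ (stdEven T).S j ⊗ P) (y : (stdEven T).S j ⟶ D.R) (m : ℤ),
    ¬ (p : ℤ) ∣ m ∧ HRing.of (stdEven T) D.R j y = m • (vv p t D.law) ^ N ∧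
      x = a.hom ≫ y ▷ P

variable {D}

theorem IsVP.isIso_rlin {p n : ℕ} [Fact p.Prime] (k : D.R ⟶ K) [IsMonHom k] (hn : n ≠ 0)
    (h0 : ∀ i < n, HRing.map (E := stdEven T) k (vv p i D.law) = 0)
    (h1 : IsUnit (HRing.map (E := stdEven T) k (vv p n D.law)))
    {N : ℕ} {A P : T} {x : A ⟶ D.R ⊗ P} (hx : IsVP D p n N x) : IsIso (K ◁ rlin D.R x) := by
  obtain ⟨j, a, y, m, hm, hy, rfl⟩ := hx
  have := eta_iso D k hn h0 h1 y hm hy
  exact isIso_whiskerLeft_rlin a y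

theorem IsVP.rlin_eq_zero {p n : ℕ} [Fact p.Prime] (k : D.R ⟶ K) [IsMonHom k]
    (h0 : ∀ i < n, HRing.map (E := stdEven T) k (vv p i D.law) = 0) {t : ℕ} (ht : t < n)
    {N : ℕ} (hN : N ≠ 0) {A P : T} {x : A ⟶ D.R ⊗ P} (hx : IsVP D p t N x) :
    K ◁ rlin D.R x = 0 := by
  obtain ⟨j, a, y, m, -, hy, rfl⟩ := hx
  exact whiskerLeft_rlin_eq_zero a.hom y (eta_zero D k h0 ht y hN hy)

/-- height `n ≥ 1`, class of height `n` -/
theorem KA.isIso_rlin {p n : ℕ} [Fact p.Prime] (h : KA D p n K) (hn : n ≠ 0) {N : ℕ} {A P : T}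
    {x : A ⟶ D.R ⊗ P} (hx : IsVP D p n N x) : IsIso (K ◁ rlin D.R x) :=
  hx.isIso_rlin h.u hn h.vv_lt h.vv_unit

/-- height `n`, class of height `t < n` -/
theorem KA.rlin_eq_zero {p n : ℕ} [Fact p.Prime] (h : KA D p n K) {t : ℕ} (ht : t < n)
    {N : ℕ} (hN : N ≠ 0) {A P : T} {x : A ⟶ D.R ⊗ P} (hx : IsVP D p t N x) :
    K ◁ rlin D.R x = 0 :=
  hx.rlin_eq_zero h.u h.vv_lt ht hN

/-- **ETA for a rational `K`.** -/
theorem eta_iso_rat {p : ℕ} [Fact p.Prime]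
    (hK : ∀ c : ℤ, c ≠ 0 → ∃ w : 𝟙_ T ⟶ K, c • w = η[K])
    {j : ℤ} (x : (stdEven T).S j ⟶ D.R) {m : ℤ} {N : ℕ} (hm : ¬ (p : ℤ) ∣ m)
    (hx : HRing.of (stdEven T) D.R j x = m • (vv p 0 D.law) ^ N) :
    IsIso (K ◁ (D.R ◁ x ≫ μ[D.R])) := by
  have hp : (p : ℤ) ≠ 0 := by exact_mod_cast (Fact.out : p.Prime).ne_zero
  have hm0 : m ≠ 0 := fun h => hm (h ▸ dvd_zero _)
  obtain ⟨w, hw⟩ := hK (m * (p : ℤ) ^ N) (mul_ne_zero hm0 (pow_ne_zero _ hp))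
  have h1 : IsUnit (((m * (p : ℤ) ^ N : ℤ)) : HRing (stdEven T) (K ⊗ D.R)) := by
    refine isUnit_of_div (w ≫ inlM K D.R) ?_
    rw [← Preadditive.zsmul_comp, hw]
    exact IsMonHom.one_hom (inlM K D.R)
  have h2 : HRing.of (stdEven T) (K ⊗ D.R) j (x ≫ inrM K D.R) =
      ((m * (p : ℤ) ^ N : ℤ) : HRing (stdEven T) (K ⊗ D.R)) := by
    rw [← HRing.map_of, hx, vv_zero, map_zsmul, map_pow, map_natCast, zsmul_eq_mul]
    push_cast
    rfl
  have h5 := isIso_rm_of_isUnit (E := stdEven T) (x ≫ inrM K D.R) (by rw [h2]; exact h1)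
  rw [rm_inrM] at h5
  exact IsIso.of_isIso_comp_left (α_ K D.R _).hom _

theorem IsVP.isIso_rlin_rat {p : ℕ} [Fact p.Prime]
    (hK : ∀ c : ℤ, c ≠ 0 → ∃ w : 𝟙_ T ⟶ K, c • w = η[K])
    {N : ℕ} {A P : T} {x : A ⟶ D.R ⊗ P} (hx : IsVP D p 0 N x) : IsIso (K ◁ rlin D.R x) := by
  obtain ⟨j, a, y, m, hm, hy, rfl⟩ := hx
  have := eta_iso_rat hK y hm hy
  exact isIso_whiskerLeft_rlin a y

end Vale.Agent.P241.BD2
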