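import Vale.Agent.P241.BD2.Vt
import Vale.Agent.P241.H882.HComm

/-!
# P241, block BD2: the homotopy of a Morava `K`-theory is a graded field

* `gfield_of_hring` : the structure `KR.GField` from the even homotopy ring `HRing`;
* `KA.gfield` : associative Morava `K`-theories of height `n ≥ 1` under `MU`;
* `gfield_rat` : the rational Eilenberg-Mac Lane spectrum;
* `gfield_of_isMoravaK` : `KR.GField K (2 * (p ^ n - 1))` for all `n`.
-/

open CategoryTheory MonoidalCategory Limits Pretriangulated MonObj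

set_option linter.unusedSectionVars false

universe v u

noncomputable section

namespace Vale.Agent.P241.BD2

open Vale.Agent.P251.T Vale.Agent.P251.M Vale.Agent.P251.S Vale.Agent.P251.F Vale.Agent.P251.I
  EvenSpheres Vale.Agent.P241.BD Vale.Agent.P241.H795 Vale.Agent.P241.KP

section gen

variable {T : Type u} [Category.{v} T] [Preadditive T] [HasZeroObject T]
    [HasShift T ℤ] [∀ n : ℤ, (shiftFunctor T n).Additive] [Pretriangulated T] [IsTriangulated T]
    [MonoidalCategory T] [SymmetricCategory T] [TensorTriangulated T] [MonoidalClosed T]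
    [HasCoproducts.{0} T] [HasProducts.{0} T] [StableCat T] {K : T} [MonObj K]

/-- the even spheres -/
def sI (m : ℤ) : (stdEven T).S m ≅ (𝟙_ T)⟦2 * m⟧ := (stdEven T).sphIso (Iso.refl _) m

/-- homogeneous elements commute -/
theorem comm_S (hc : ∀ x y : HRing (stdEven T) K, x * y = y * x) {k l : ℤ}
    (f : (stdEven T).S k ⟶ K) (g : (stdEven T).S l ⟶ K) :
    (β_ _ _).hom ≫ (g ⊗ₘ f) ≫ μ[K] = (f ⊗ₘ g) ≫ μ[K] := by
  have h1 : gmul (E := stdEven T) (p := k + l) rfl f g = gmul (add_comm l k) g f := by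
    have h2 := hc (HRing.of (stdEven T) K k f) (HRing.of (stdEven T) K l g)
    rw [of_mul_of rfl, of_mul_of (add_comm l k)] at h2
    exact Vale.Agent.P251.Z.hring_of_injective _ _ _ h2
  unfold gmul at h1
  rw [← ext_comm rfl (add_comm l k) f g, Category.assoc] at h1
  unfold EvenSpheres.ext at h1
  rw [Category.assoc, Category.assoc, cancel_epi] at h1
  rw [h1, ← BraidedCategory.braiding_naturality_assoc]

/-- homogeneous elements commute -/
theorem comm_of {A B : T} {k l : ℤ} (a : A ≅ (stdEven T).S k) (b : B ≅ (stdEven T).S l)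
    (hc : ∀ x y : HRing (stdEven T) K, x * y = y * x) (f : A ⟶ K) (g : B ⟶ K) :
    (β_ _ _).hom ≫ (g ⊗ₘ f) ≫ μ[K] = (f ⊗ₘ g) ≫ μ[K] := by
  obtain ⟨f', rfl⟩ : ∃ f', f = a.hom ≫ f' := ⟨a.inv ≫ f, by simp⟩
  obtain ⟨g', rfl⟩ : ∃ g', g = b.hom ≫ g' := ⟨b.inv ≫ g, by simp⟩
  rw [← tensorHom_comp_tensorHom, ← tensorHom_comp_tensorHom, Category.assoc,
    Category.assoc, ← comm_S hc f' g', ← BraidedCategory.braiding_naturality_assoc]

/-- **The structure `GField` from the even homotopy ring.** -/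
theorem gfield_of_hring {q : ℕ} (odd : Vale.Agent.P251.X.Odd0 K) (ne : η[K] ≠ 0)
    (sparse : ∀ (m : ℤ), ¬ (q : ℤ) ∣ m → ∀ f : (stdEven T).S m ⟶ K, f = 0)
    (per : ∃ g : (stdEven T).S q ⟶ K, g ≠ 0)
    (inv : ∀ (m : ℤ) (f : (stdEven T).S m ⟶ K), f ≠ 0 →
      IsUnit (HRing.of (stdEven T) K m f))
    (comm : ∀ x y : HRing (stdEven T) K, x * y = y * x) : KR.GField K (2 * q) where
  even := even_two_mul q
  ne := ne
  van m hm f := by
    rcases Int.even_or_odd' m with ⟨k, rfl | rfl⟩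
    · have h1 : ¬ (q : ℤ) ∣ k := by
        intro h
        apply hm
        push_cast
        exact mul_dvd_mul_left 2 h
      rw [← cancel_epi (sI k).hom, sparse k h1 ((sI k).hom ≫ f), comp_zero]
    · exact odd k f
  per := by
    obtain ⟨g, hg⟩ := per
    have h : ((2 * q : ℕ) : ℤ) = 2 * (q : ℤ) := by push_cast; rfl
    rw [h]
    refine ⟨(sI (q : ℤ)).inv ≫ g, fun h0 => hg ?_⟩
    rw [← cancel_epi (sI (q : ℤ)).inv, h0, comp_zero]
  inv m f hf := by
    rcases Int.even_or_odd' m with ⟨k, rfl | rfl⟩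
    · have h1 : (sI k).hom ≫ f ≠ 0 := by
        intro h0
        apply hf
        rw [← cancel_epi (sI k).hom, h0, comp_zero]
      have h2 := isIso_rm_of_isUnit _ (inv k _ h1)
      rw [rm_precomp] at h2
      have h3 : IsIso (K ◁ (sI k).hom ≫ (K ◁ f ≫ μ[K])) := h2
      exact IsIso.of_isIso_comp_left (K ◁ (sI k).hom) _
    · exact absurd (odd k f) hf
  comm a b f g := by
    rcases Int.even_or_odd' a with ⟨k, rfl | rfl⟩
    · rcases Int.even_or_odd' b with ⟨l, rfl | rfl⟩
      · exact comm_of (sI k).symm (sI l).symm comm f g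
      · rw [odd l g, MonoidalPreadditive.zero_tensor, MonoidalPreadditive.tensor_zero, zero_comp,
          comp_zero, zero_comp]
    · rw [odd k f, MonoidalPreadditive.zero_tensor, MonoidalPreadditive.tensor_zero, zero_comp,
          comp_zero, zero_comp]

/-- **Associative Morava `K`-theories under `MU`.** -/
theorem KA.gfield {D : MUData T} {p n : ℕ} [Fact p.Prime] (h : KA D p n K) :
    KR.GField K (2 * (p ^ n - 1)) := by
  have hq : ((p ^ n - 1 : ℕ) : ℤ) = (p : ℤ) ^ n - 1 := by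
    rw [Nat.cast_sub (Nat.one_le_pow _ _ (Fact.out : p.Prime).pos)]
    push_cast
    rfl
  have hV : HRing.map (E := stdEven T) h.u (vv p n D.law) =
      HRing.of (stdEven T) K ((p ^ n : ℤ) - 1) (D.vel p n ≫ h.u) := by
    rw [D.vel_spec, HRing.map_of]
  have hu : IsUnit (HRing.of (stdEven T) K ((p ^ n : ℤ) - 1) (D.vel p n ≫ h.u)) := by
    rw [← hV]
    exact h.vv_unit
  obtain ⟨w, hw1, hw2⟩ := exists_hinv _ hu
  have H : Lau (stdEven T) p ((p ^ n : ℤ) - 1) (D.vel p n ≫ h.u) w :=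
    ⟨hw1, hw2, h.sparse, h.char, h.ne, h.gen⟩
  have hc := H.hcomm
  have h0 : (1 : HRing (stdEven T) K) ≠ 0 := H.one_ne
  have hnt : Nontrivial (HRing (stdEven T) K) := ⟨_, _, h0⟩
  refine gfield_of_hring (q := p ^ n - 1) h.odd h.ne (fun m hm f => h.sparse m ?_ f) ?_ ?_ hc.comm
  · rwa [← hq]
  · rw [hq]
    refine ⟨D.vel p n ≫ h.u, fun h1 => ?_⟩
    rw [h1] at hu
    have h2 : HRing.of (stdEven T) K ((p ^ n : ℤ) - 1) 0 = 0 := map_zero _
    rw [h2] at hu
    exact not_isUnit_zero hu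
  · intro m f hf
    obtain ⟨c, k, l, h3⟩ := H.exists_vw m f
    have hk : IsUnit (HRing.of (stdEven T) K ((p ^ n : ℤ) - 1) (D.vel p n ≫ h.u) ^ k) := hu.pow k
    by_cases hpc : (p : ℤ) ∣ c
    · obtain ⟨c', rfl⟩ := hpc
      exfalso
      apply hf
      have h4 : HRing.of (stdEven T) K m f *
          HRing.of (stdEven T) K ((p ^ n : ℤ) - 1) (D.vel p n ≫ h.u) ^ k = 0 := by
        rw [h3]
        push_cast
        rw [H.natCast_p, MulZeroClass.zero_mul, MulZeroClass.zero_mul]
      have h5 : HRing.of (stdEven T) K m f = 0 := (hk.mul_left_eq_zero).1 h4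
      exact Vale.Agent.P251.Z.hring_of_injective _ _ _ (h5.trans (map_zero _).symm)
    · have h4 : IsUnit (c : HRing (stdEven T) K) := isUnit_intCast Fact.out H.natCast_p hpc
      have h5 : IsUnit (HRing.of (stdEven T) K m f *
          HRing.of (stdEven T) K ((p ^ n : ℤ) - 1) (D.vel p n ≫ h.u) ^ k) := by
        rw [h3]
        exact h4.mul (hu.pow l)
      obtain ⟨w', hw'⟩ := hk
      rw [← hw'] at h5
      exact (Units.isUnit_mul_units _ w').1 h5

/-- `K` is rational: multiplication by `c ≠ 0` is invertible -/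
theorem exists_zinv (hK : ∀ c : ℤ, c ≠ 0 → ∃ w : 𝟙_ T ⟶ K, c • w = η[K]) {c : ℤ} (hc : c ≠ 0) :
    IsUnit (c : HRing (stdEven T) K) := by
  obtain ⟨w, hw⟩ := hK c hc
  exact isUnit_of_div w hw

/-- **The rational Eilenberg-Mac Lane spectrum.** -/
theorem gfield_rat (conc : ∀ (k : ℤ) (f : (𝟙_ T)⟦k⟧ ⟶ K), k ≠ 0 → f = 0) (ne : η[K] ≠ 0)
    (hK : ∀ c : ℤ, c ≠ 0 → ∃ w : 𝟙_ T ⟶ K, c • w = η[K])
    (gen : ∀ f : 𝟙_ T ⟶ K, ∃ a m : ℤ, m ≠ 0 ∧ m • f = a • η[K]) : KR.GField K 0 := by
  have hS : ∀ (m : ℤ), m ≠ 0 → ∀ f : (stdEven T).S m ⟶ K, f = 0 := by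
    intro m hm f
    rw [← cancel_epi (sI m).inv, conc _ ((sI m).inv ≫ f) (by omega), comp_zero]
  have key : ∀ (m : ℤ) (f : (stdEven T).S m ⟶ K), f ≠ 0 → ∃ a b : ℤ, a ≠ 0 ∧ b ≠ 0 ∧
      (b : HRing (stdEven T) K) * HRing.of (stdEven T) K m f = (a : HRing (stdEven T) K) := by
    intro m f hf
    rcases eq_or_ne m 0 with rfl | hm
    · obtain ⟨a, b, hb, h⟩ := gen ((stdEven T).zero.hom ≫ f)
      have h1 : b • f = a • ((stdEven T).zero.inv ≫ η[K]) := by
        rw [← Preadditive.comp_zsmul, ← h, Preadditive.comp_zsmul, Iso.inv_hom_id_assoc]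
      have h2 : (b : HRing (stdEven T) K) * HRing.of (stdEven T) K 0 f =
          (a : HRing (stdEven T) K) := by
        rw [← zsmul_eq_mul, ← map_zsmul, h1, map_zsmul]
        exact zsmul_one a
      refine ⟨a, b, ?_, hb, h2⟩
      rintro rfl
      apply hf
      rw [Int.cast_zero] at h2
      have h3 := ((exists_zinv hK hb).mul_right_eq_zero).1 h2
      exact Vale.Agent.P251.Z.hring_of_injective _ _ _ (h3.trans (map_zero _).symm)
    · exact absurd (hS m hm f) hf
  have hcomm : ∀ (m : ℤ) (f : (stdEven T).S m ⟶ K) (y : HRing (stdEven T) K),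
      HRing.of (stdEven T) K m f * y = y * HRing.of (stdEven T) K m f := by
    intro m f y
    by_cases hf : f = 0
    · have h0 : HRing.of (stdEven T) K m f = 0 := by
        rw [hf]
        exact map_zero _
      rw [h0, MulZeroClass.zero_mul, MulZeroClass.mul_zero]
    · obtain ⟨a, b, -, hb, h⟩ := key m f hf
      apply (exists_zinv hK hb).mul_left_cancel
      rw [← _root_.mul_assoc, h, ← _root_.mul_assoc, (Int.cast_commute b y).eq,
        _root_.mul_assoc, h, (Int.cast_commute a y).eq]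
  refine gfield_of_hring (q := 0) (fun l f => conc _ f (by omega)) ne (fun m hm f => hS m ?_ f)
    ⟨(stdEven T).zero.inv ≫ η[K], ?_⟩ (fun m f hf => ?_) fun x y => ?_
  · rintro rfl
    exact hm (dvd_zero _)
  · intro h
    apply ne
    rw [← cancel_epi (stdEven T).zero.inv, comp_zero]
    exact h
  · obtain ⟨a, b, ha, hb, h⟩ := key m f hf
    have h1 : IsUnit ((b : HRing (stdEven T) K) * HRing.of (stdEven T) K m f) := by
      rw [h]
      exact exists_zinv hK ha
    obtain ⟨w, hw⟩ := exists_zinv hK hb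
    rw [← hw] at h1
    exact (Units.isUnit_units_mul w _).1 h1
  · induction x using DirectSum.induction_on with
    | zero => rw [MulZeroClass.zero_mul, MulZeroClass.mul_zero]
    | add x x' hx hx' => rw [add_mul, mul_add, hx, hx']
    | of m f => exact hcomm m f y

end gen

section morava

open Vale.Agent.P251.St Vale.Agent.P251.St.SHCat Vale.Agent.P241.St Vale.Agent.P241.Final

/-- **The homotopy of a Morava `K`-theory is a graded field**, for every height and every prime. -/
theorem gfield_of_isMoravaK {T : SHCat} {S : Susp T} {p : ℕ} [Fact p.Prime] {X : Ctx S}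
    (hKA : KAStmt S p X) {n : ℕ} {K : RingA T} (hK : IsMoravaK S p n K) :
    KR.GField K.obj (2 * (p ^ n - 1)) := by
  rcases Nat.eq_zero_or_pos n with rfl | hn
  · have h := isRationalA_of hK
    exact gfield_rat h.conc h.ne (exists_div h) h.gen
  · obtain ⟨h1⟩ := hKA n hn.ne' K hK
    exact KA.gfield h1

end morava

end Vale.Agent.P241.BD2
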