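import Vale.Agent.P241.BD2.Field
import Vale.Agent.P241.H795.KStmt

/-!
# P241, block BD2: the `K`-side facts without hypotheses

`kaStmt` (helper795's `nonempty_KA`) and its consequences: `vtStmt`, `gfield`.
-/

open CategoryTheory MonoidalCategory Limits Pretriangulated MonObj

noncomputable section

namespace Vale.Agent.P241.BD2

open Vale.Agent.P251 Vale.Agent.P251.St Vale.Agent.P251.St.SHCat
open Vale.Agent.P241.St Vale.Agent.P241.Final

variable {T : SHCat} {S : Susp T} {p : ℕ} [Fact p.Prime]

theorem kaStmt (X : Ctx S) : KAStmt S p X := fun _ hn _ hK => H795.nonempty_KA X.muUniv hn hK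

/-- **Block BD2 (c), (d).** -/
theorem vtStmt (X : Ctx S) : R.VtStmt S p X := vtStmt_of (kaStmt X)

/-- **The homotopy of a Morava `K`-theory is a graded field.** -/
theorem gfield {n : ℕ} {K : RingA T} (hK : IsMoravaK S p n K) :
    KR.GField K.obj (2 * (p ^ n - 1)) := by
  obtain ⟨X⟩ := Ctx.nonempty S
  exact gfield_of_isMoravaK (kaStmt X) hK

end Vale.Agent.P241.BD2
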