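import Vale.Agent.P241.KR.Cell
import Vale.Agent.P241.BD.SkelMap

/-!
# P241, block BD2: bases of the homology of skeleta, in the form of `H132/Stage.lean`

* `basisPar_cl` : `Cl s B` has a basis with `s.card` elements of even degree;
* `basisPar_tensor`, `basisPar_iso`;
* `skelRkStmt` : the statement `R.SkelRkStmt`.
-/

open CategoryTheory MonoidalCategory Limits Pretriangulated MonObj
open Vale.Agent.P251.T Vale.Agent.P251.M Vale.Agent.P251.I
open Vale.Agent.P251.St (SHCat Susp Space Map FC)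
open Vale.Agent.P241.St Vale.Agent.P241.Final Vale.Agent.P241.BD Vale.Agent.P241.KR

universe v u

set_option linter.unusedSectionVars false

namespace Vale.Agent.P241.BD2

variable {T : SHCat} {S : Susp T} {p : ℕ}

/-- hypothesis `hB1` of `BD.skelMap_of` -/
theorem basisPar_cl (n : ℕ) (K : RingA T) (hK : IsMoravaK S p n K) {s : Multiset ℤ} {B : T.C}
    (hB : Cl T.C s B) : H132.BasisPar K B 0 s.card := by
  obtain ⟨b, hb⟩ := exists_kbasis_fin_of_cl (K := K.obj) (oddZero_of_isMoravaK hK) hB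
  exact ⟨b, fun i => by rw [add_zero]; exact hb i⟩

/-- hypothesis `hB3` of `BD.skelMap_of` -/
theorem basisPar_iso (K : RingA T) {X Y : T.C} {ε : ℤ} {n : ℕ} (e : X ≅ Y)
    (h : H132.BasisPar K X ε n) : H132.BasisPar K Y ε n := by
  obtain ⟨b, hb⟩ := h
  exact ⟨b.ofIso e, hb⟩

/-- hypothesis `hB2` of `BD.skelMap_of` -/
theorem basisPar_tensor (K : RingA T) {X : T.C} {ε q : ℤ} {n : ℕ} {Q : T.C}
    (hQ : Nonempty (Q ≅ (𝟙_ T.C)⟦q⟧)) (h : H132.BasisPar K X ε n) :
    H132.BasisPar K (X ⊗ Q) (ε + q) n := by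
  obtain ⟨b, hb⟩ := h
  obtain ⟨e⟩ := hQ
  refine ⟨(b.tensorSphere q).ofIso (whiskerLeftIso X e.symm), fun i => ?_⟩
  change Even (b.e i + q + (ε + q))
  have h1 : b.e i + q + (ε + q) = (b.e i + ε) + 2 * q := by ring
  rw [h1]
  exact (hb i).add (even_two_mul q)

/-- the statement of block BD2 (a), (b) -/
theorem skelRkStmt (X : Ctx S) : R.SkelRkStmt S p X := by
  intro n K hK d s B i hi
  obtain ⟨b, hb⟩ := exists_kbasis_fin_of_cl (K := K.obj) (oddZero_of_isMoravaK hK) hi.cells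
  refine ⟨⟨Fin s.card, inferInstance, b, ?_, ?_⟩, ?_⟩
  · rw [KBasis.ev, Nat.card_congr (Equiv.subtypeUnivEquiv hb), Nat.card_fin]
  · rw [KBasis.od]
    have : IsEmpty {i // Odd (b.e i)} := ⟨fun i => Int.not_even_iff_odd.2 i.2 (hb i.1)⟩
    exact Nat.card_of_isEmpty
  · exact hi.injH (oddZero_of_isMoravaK hK)

end Vale.Agent.P241.BD2
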